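import Vale.Agent.P141.H329.WinBC
import Vale.Agent.P141.H652.NumB
import Vale.Agent.P141.H808.NumCA

/-!
# P141, line (A), TI, the pair `(Bg, Cg)`: the window in the letters of the class

`pBC_cls` : the left side of `H886.NumBC` at one `x0` is at most the plane sums of the gains of the
stopped paths `H652.bS` and `H808.cS`.
-/

namespace Vale.Agent.P141.H329.WinBC

open Finset Matrix
open Vale.Agent.P075 (Ix)
open Vale.Agent.P141.PL (Pt iv cx)
open Vale.Agent.P141.PL.H315 (Tri)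
open Vale.Agent.P141.H103 (GW)
open Vale.Agent.P141.PL.H103 Vale.Agent.P141.H103
open Vale.Agent.P141.H652 (Th)
open Vale.Agent.P141.H677 (KT sN cP rv tr_T)
open Vale.Agent.P141.H401 (cb)
open Vale.Agent.P141.H408 (C1 beI)
open Vale.Agent.P141.H419.PairB (gnV)
open Vale.Agent.P141.H457 (PG)
open Vale.Agent.P141.H808 (cS)
open Vale.Agent.P141.H886 (pBC)
open Vale.Agent.P141.H874

noncomputable section

variable {ι : Type} [Fintype ι] [DecidableEq ι]

/-- **The window in the letters of the class.** -/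
theorem pBC_cls {p : H401.Num} {s r : ℝ} (ht : 0 < p.t) (hs : 0 < s) (hr : 1 ≤ r) (ez : ℝ)
    (U : Tri) (o : ℤ) (K : ℕ) (x : Pt) (u v : ℤ → ℤ → ι → ℝ) (F2 F3 : ℕ → Pt → ℝ)
    (Q3 : ℕ → Pt → Prop) {y z : ℝ} (hy : 0 < y) (hz : 0 < z) (x0 : ℤ) :
    pBC (p.al U K) o K (cx K x) (beI p r) (p.lam s r) u (cb p s r U K u F3 Q3)
      (C1 p ez U K v F2) y z x0 ≤
      ∑ k ∈ Ico 0 K, GW K (cx K x).2.1 (cx K x).1 (cx K x).2.2 (k + 1) (cP o x0 (k + 1))
        (gnV (ι := fun k => Ix k × ι) (fun k a n m => CP (H652.bS p s r U K u F3 Q3 x0 k) k a n m)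
          (fun k a n m => PG (beI p r) (z ^ 2)
            (fun a x1 j => Th (p.lam s r) K (cx K x).2.1 (KT (p.lam s r) u x1) (o - 2) x0 x1 a j)
            (cS p ez U K v F2 x0 k) k a n m) (fun k => sk (k + 1) ι) k) := by
  have hl : 0 < p.lam s r := H401.Num.lam_pos (p := p) ht hs hr
  have hbe : 0 < beI p r := Real.rpow_pos_of_pos (div_pos ht (by linarith)) _
  refine (pBC_le hbe (fun x1 => tr_T hl K u x1) _ _ hy hz x0).trans (le_of_eq ?_)
  refine sum_congr rfl fun k hk => ?_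
  have hk1 : k + 1 ≤ K := (mem_Ico.1 hk).2
  have e1 : H652.bS p s r U K u F3 Q3 x0 (k + 1) = cb p s r U K u F3 Q3 x0 (k + 1) :=
    H652.bS_le hk1 x0
  have e2 : cS p ez U K v F2 x0 (k + 1) = fun x1 w => C1 p ez U K v F2 x0 (k + 1) w x1 := by
    funext x1 w
    show C1 p ez U K v F2 x0 (min (k + 1) K) w x1 = _
    rw [min_eq_left hk1]
  refine congrArg (fun g => GW K (cx K x).2.1 (cx K x).1 (cx K x).2.2 (k + 1)
    (cP o x0 (k + 1)) g) ?_
  funext n n' m
  unfold gnV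
  beta_reduce
  rw [e1, e2]

end

end Vale.Agent.P141.H329.WinBC
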