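import Vale.Agent.P141.H886.LbcEnd
import Vale.Agent.P141.H228.GaugeN
import Vale.Agent.P141.H457.RealBC
import Vale.Agent.P141.H719.RpGW

/-!
# P141, line (A), TI, the pair `(Bg, Cg)`: the window

`pBC_le` : the pair at one `x0` is at most the sum over the scales of the plane sums of the gains of
`H457.wpair` (raw first slot at its own time, second slot `PG`).
-/

namespace Vale.Agent.P141.H329.WinBC

open Finset Matrix
open Vale.Agent.P075 (Ix)
open Vale.Agent.P141.PL (Pt iv)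
open Vale.Agent.P141.H103 (GW)
open Vale.Agent.P141.PL.H103 Vale.Agent.P141.H103
open Vale.Agent.P141.H652 (Th Th_psd)
open Vale.Agent.P141.H677 (KT sN sN_sub cP rv)
open Vale.Agent.P141.H677.Sk (FamV)
open Vale.Agent.P141.H408 (rBC)
open Vale.Agent.P141.H420 (Tr)
open Vale.Agent.P141.H419.PairB (gnV)
open Vale.Agent.P141.H228.Gauge (Bg Cg rBC_g_le)
open Vale.Agent.P141.H457 (PG PG_psd)
open Vale.Agent.P141.H886 (pBC)
open Vale.Agent.P141.H874

noncomputable section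

variable {ι : Type} [Fintype ι] [DecidableEq ι]

/-- **The window.** -/
theorem pBC_le {Al : ℕ → Pt → Prop} {o : ℤ} {K : ℕ} {M : Pt} {be l : ℝ} {u : ℤ → ℤ → ι → ℝ}
    {G : ℤ → ℕ → ℤ → Matrix ι ι ℝ} (hbe : 0 < be) (h : ∀ x, Tr l K (G x) (KT l u x))
    (b C : FamV ι) {y z : ℝ} (hy : 0 < y) (hz : 0 < z) (x0 : ℤ) :
    pBC Al o K M be l u b C y z x0 ≤
      ∑ k ∈ Ico 0 K, GW K M.2.1 M.1 M.2.2 (k + 1) (cP o x0 (k + 1))
        (gnV (ι := fun k => Ix k × ι) (fun k a n m => CP (b x0 k) k a n m)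
          (fun k a n m => PG be (z ^ 2) (fun a x j => Th l K M.2.1 (KT l u x) (o - 2) x0 x a j)
            (fun x w => C x0 k w x) k a n m) (fun k => sk (k + 1) ι) k) := by
  unfold pBC
  have e : ∀ f : ℕ → ℝ, ∑ k ∈ Icc 1 K, f k = ∑ k ∈ Ico 0 K, f (k + 1) := by
    intro f
    rw [Finset.sum_Ico_add' f 0 K 1]
    rfl
  rw [e]
  refine sum_le_sum fun k _ => ?_
  have hp : ∀ a x j, (Th l K M.2.1 (KT l u x) (o - 2) x0 x a j).PosSemidef := fun a x j =>
    Th_psd (h x) (o - 2) x0 x a j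
  have hg : ∀ n n' m, 0 ≤ gnV (ι := fun k => Ix k × ι) (fun k a n m => CP (b x0 k) k a n m)
      (fun k a n m => PG be (z ^ 2) (fun a x j => Th l K M.2.1 (KT l u x) (o - 2) x0 x a j)
        (fun x w => C x0 k w x) k a n m) (fun k => sk (k + 1) ι) k n n' m := by
    intro n n' m
    unfold gnV
    exact P075.trace_mul_nonneg (CP_psd _ _ _ _ _)
      (P075.psd_conj_symm (PG_psd (by positivity) hbe hp _ _ _ _ _) (sk_tr (k + 1)))
  refine le_trans (sum_le_sum fun m _ => rBC_g_le hbe h (o - 2) x0 (b x0 (k + 1))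
    (C x0 (k + 1)) (k + 1) m hy hz) ?_
  rw [← mul_sum]
  exact H719.le_GW_x (sN_sub Al o K M x0 (k + 1)) hg

end

end Vale.Agent.P141.H329.WinBC
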